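import Vale.Agent.P217.ActionUnique.Rigid
import Vale.Agent.P217.HeightIdeal
import Mathlib.RingTheory.WittVector.DiscreteValuationRing
import Mathlib.RingTheory.WittVector.Complete
import Mathlib.FieldTheory.Finite.Basic

/-!
# P217, action: uniqueness of the action, and its evaluation at points
-/

noncomputable section

namespace Vale.Agent.P217.AU

open MvPowerSeries Finset

variable {p : ℕ} [hp : Fact p.Prime] {n : ℕ} {k : Type} [Field k] [CharP k p] [PerfectRing k p]

lemma mem_mIdeal_iff (f : LT p n k) : f ∈ mIdeal p n k ↔ res p n k f = 0 := by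
  classical
  constructor
  · intro hf
    rw [← RingHom.mem_ker]
    refine Ideal.span_le.2 ?_ hf
    rintro x (rfl | ⟨i, rfl⟩)
    · rw [SetLike.mem_coe, RingHom.mem_ker, map_natCast, CharP.cast_eq_zero]
    · exact res_X p n k i
  · intro h
    refine Ideal.span_le.2 ?_ (mem_span_of_coeff (R := WittVector p k) Finset.univ (p : WittVector p k) f ?_)
    · rintro x (rfl | ⟨i, -, rfl⟩)
      · rw [SetLike.mem_coe, map_natCast]
        exact Ideal.subset_span (Set.mem_insert _ _)
      · exact Ideal.subset_span (Set.mem_insert_of_mem _ ⟨i, rfl⟩)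
    · intro d hd
      obtain rfl : d = 0 := Finsupp.ext fun t => hd t (Finset.mem_univ t)
      rw [← Ideal.mem_span_singleton, WittVector.mem_span_p_iff_coeff_zero_eq_zero,
        coeff_zero_eq_constantCoeff_apply]
      exact h

omit [CharP k p] [PerfectRing k p] in
lemma p_mem_mIdeal : (p : LT p n k) ∈ mIdeal p n k := Ideal.subset_span (Set.mem_insert _ _)

omit [CharP k p] [PerfectRing k p] in
lemma X_mem_mIdeal (i : Fin (n - 1)) : (MvPowerSeries.X i : LT p n k) ∈ mIdeal p n k :=
  Ideal.subset_span (Set.mem_insert_of_mem _ ⟨i, rfl⟩)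

lemma isUnit_of_res {f : LT p n k} (h : res p n k f ≠ 0) : IsUnit f :=
  MvPowerSeries.isUnit_iff_constantCoeff.2 (WittVector.isUnit_of_coeff_zero_ne_zero _ h)

lemma cIn_of_map_res {φ ψ : PowerSeries (LT p n k)}
    (h : PowerSeries.map (res p n k) φ = PowerSeries.map (res p n k) ψ) :
    CIn (σ := Unit) (mIdeal p n k) (φ - ψ) := fun d => by
  rw [mem_mIdeal_iff, map_sub, map_sub, sub_eq_zero, ← coeff_map, ← coeff_map]
  exact congrArg (MvPowerSeries.coeff d) h

/-- The series whose coefficient at `d` is divisible by `p ^ (S - |d|)`. -/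
def jIdeal (p : ℕ) [Fact p.Prime] (n : ℕ) (k : Type) [Field k] [CharP k p] (S : ℕ) :
    Ideal (LT p n k) where
  carrier := {f | ∀ d, (p : WittVector p k) ^ (S - d.degree) ∣ coeff d f}
  add_mem' hf hg d := by rw [map_add]; exact dvd_add (hf d) (hg d)
  zero_mem' d := by rw [map_zero]; exact dvd_zero _
  smul_mem' c f hf d := by
    classical
    rw [smul_eq_mul, coeff_mul]
    refine Finset.dvd_sum fun e he => dvd_mul_of_dvd_right (dvd_trans ?_ (hf e.2)) _
    rw [Finset.mem_antidiagonal] at he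
    refine pow_dvd_pow _ ?_
    rw [← he, map_add]
    omega

lemma mIdeal_pow_le_jIdeal : ∀ S, mIdeal p n k ^ S ≤ jIdeal p n k S
  | 0 => fun f _ d => by simp
  | S + 1 => by
    classical
    rw [pow_succ, Ideal.mul_le]
    intro r hr s hs
    have hr' := mIdeal_pow_le_jIdeal S hr
    refine Submodule.span_induction (p := fun s _ => r * s ∈ jIdeal p n k (S + 1))
      (fun x hx => ?_) (by simp) (fun x y _ _ hx hy => by rw [mul_add]; exact add_mem hx hy)
      (fun a x _ hx => by rw [smul_eq_mul, mul_left_comm]; exact Ideal.mul_mem_left _ a hx) hs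
    intro d
    rcases hx with rfl | ⟨i, rfl⟩
    · rw [mul_comm, ← map_natCast (C (σ := Fin (n - 1)) (R := WittVector p k)), coeff_C_mul]
      calc (p : WittVector p k) ^ (S + 1 - d.degree) ∣ (p : WittVector p k) ^ (S - d.degree + 1) :=
            pow_dvd_pow _ (by omega)
        _ ∣ _ := by rw [pow_succ']; exact mul_dvd_mul_left _ (hr' d)
    · show _ ∣ coeff d (r * MvPowerSeries.X i)
      rw [mul_comm, X_def, coeff_monomial_mul]
      split_ifs with hle
      · rw [one_mul]
        refine dvd_trans (pow_dvd_pow _ ?_) (hr' _)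
        have h1 : (d - Finsupp.single i 1).degree + 1 = d.degree := by
          conv_rhs => rw [← tsub_add_cancel_of_le hle, map_add, Finsupp.degree_single]
        omega
      · exact dvd_zero _

/-- Krull separation. -/
lemma eq_zero_of_forall_mem {f : LT p n k} (h : ∀ S, f ∈ mIdeal p n k ^ S) : f = 0 := by
  ext d : 1
  rw [map_zero]
  ext m
  have hdvd := mIdeal_pow_le_jIdeal _ (h (m + 1 + d.degree)) d
  rw [Nat.add_sub_cancel, ← Ideal.mem_span_singleton] at hdvd
  rw [WittVector.zero_coeff]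
  exact (WittVector.mem_span_p_pow_iff_le_coeff_eq_zero _ _).1
    hdvd m (Nat.lt_succ_self m)

lemma exists_eq_C_add_sum (f : LT p n k) : ∃ r : Fin (n - 1) → LT p n k,
    f = MvPowerSeries.C (constantCoeff f) + ∑ i, r i * MvPowerSeries.X i := by
  classical
  have h : f - MvPowerSeries.C (constantCoeff f) ∈
      Ideal.span (Set.range fun i => (MvPowerSeries.X i : LT p n k)) := by
    refine Ideal.span_le.2 ?_ (mem_span_of_coeff (R := WittVector p k) Finset.univ 0 _ fun d hd => ?_)
    · rintro x (rfl | ⟨i, -, rfl⟩)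
      · simp
      · exact Ideal.subset_span ⟨i, rfl⟩
    · obtain rfl : d = 0 := Finsupp.ext fun t => hd t (Finset.mem_univ t)
      simp
  obtain ⟨r, hr⟩ := Ideal.mem_span_range_iff_exists_fun.1 h
  exact ⟨r, by rw [hr, add_sub_cancel]⟩

/-- Two semilinear endomorphisms with the same values on the variables coincide. -/
theorem action_ext {γ γ' : LT p n k →+* LT p n k}
    (hC : ∀ a, γ (MvPowerSeries.C a) = γ' (MvPowerSeries.C a))
    (hX : ∀ i, γ (MvPowerSeries.X i) = γ' (MvPowerSeries.X i))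
    (hm : ∀ i, γ (MvPowerSeries.X i) ∈ mIdeal p n k) : γ = γ' := by
  have key : ∀ S f, γ f - γ' f ∈ mIdeal p n k ^ S := by
    intro S
    induction S with
    | zero => intro f; rw [pow_zero, Ideal.one_eq_top]; exact Submodule.mem_top
    | succ S ih =>
      intro f
      obtain ⟨r, hr⟩ := exists_eq_C_add_sum f
      rw [hr, map_add, map_add, hC, add_sub_add_left_eq_sub, map_sum, map_sum,
        ← Finset.sum_sub_distrib]
      refine Ideal.sum_mem _ fun i _ => ?_
      rw [map_mul, map_mul, ← hX, ← sub_mul, pow_succ]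
      exact Ideal.mul_mem_mul (ih _) (hm i)
  exact RingHom.ext fun f => sub_eq_zero.1 (eq_zero_of_forall_mem fun S => key S f)

omit [PerfectRing k p] in
lemma univLaw_map {B : Type} [CommRing B] (γ : LT p n k →+* B) :
    (univLaw p n k).map γ = law p (vTuple n fun i => γ (MvPowerSeries.X i)) := by
  rw [univLaw, law_map]
  congr 1
  funext i
  rw [map_vTuple]

/-- Only the Honda law receives an isomorphism from the Honda law over a field. -/
lemma param_eq_zero (hLow : LowDegreeTarget) (hn : 1 ≤ n) {w : Fin (n - 1) → k}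
    {g : PowerSeries k} (hg : IsHom (honda p n k) (law p (vTuple n w)) g)
    (hu : IsUnit (PowerSeries.coeff 1 g)) : ∀ j (hj : j < n - 1), w ⟨j, hj⟩ = 0 := by
  intro j
  induction j using Nat.strong_induction_on with
  | _ j ih =>
  intro hj
  set v := vTuple n w
  have hlow : ∀ i, 1 ≤ i → i < j + 1 → v i = 0 := fun i h1 h2 => by
    simp only [v, vTuple, dif_pos (show 1 ≤ i ∧ i < n by omega)]
    exact ih (i - 1) (by omega) _
  have hjn : p ^ (j + 1) < p ^ n := Nat.pow_lt_pow_right hp.out.one_lt (by omega)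
  have hP : ∀ m ≤ p ^ (j + 1), PowerSeries.coeff m (pSer p (honda p n k)) = 0 := fun m hm => by
    rw [(hLow p k).2.2.2 n hn inferInstance, PowerSeries.coeff_X_pow, if_neg (by omega)]
  have hP' : ∀ m < p ^ (j + 1), PowerSeries.coeff m (pSer p (law p v)) = 0 := fun m hm => by
    rcases Nat.eq_zero_or_pos m with rfl | hm0
    · rw [PowerSeries.coeff_zero_eq_constantCoeff_apply]
      exact mulSer_const _ p
    · exact (hLow p k).2.2.1 v (j + 1) inferInstance hlow m
        fun hd => absurd (Nat.le_of_dvd hm0 hd) (by omega)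
  have h := lead_of_commute (P := pSer p (honda p n k)) (P' := pSer p (law p v))
    (Nat.one_le_pow (j + 1) p hp.out.pos) (fun m hm => hP m hm.le) hP' hg.1 (hg.subst_mulSer p)
  rw [hP _ le_rfl, mul_zero,
    eq_comm, mul_eq_zero, or_iff_left (pow_ne_zero _ hu.ne_zero)] at h
  have h2 := (hLow p k).2.1 v (j + 1) (Nat.le_add_left 1 j)
  rw [h, zero_sub, neg_mem_iff]
    at h2
  have hbot : Ideal.span (insert (p : k) (v '' {i | 1 ≤ i ∧ i < j + 1})) = ⊥ := by
    rw [Ideal.span_eq_bot]
    rintro x (rfl | ⟨i, ⟨h1, h2⟩, rfl⟩)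
    · exact CharP.cast_eq_zero k p
    · exact hlow i h1 h2
  rw [hbot, Ideal.mem_bot] at h2
  simpa [v, vTuple, show j + 1 < n by omega] using h2

/-- Every action fixes the maximal ideal. -/
theorem action_mem_mIdeal (hLow : LowDegreeTarget) (hn : 1 ≤ n) {g : PowerSeries k} {r : ℕ}
    {γ : LT p n k →+* LT p n k} {φ : PowerSeries (LT p n k)} (hg : IsAut p n k g)
    (hγ : IsAction p n k g r γ φ) (i : Fin (n - 1)) :
    γ (MvPowerSeries.X i) ∈ mIdeal p n k := by
  rw [mem_mIdeal_iff]
  have h := isHom_map (res p n k) hγ.2.1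
  rw [univLaw_res, hγ.2.2, univLaw_map γ, law_map, show
    (fun i => res p n k (vTuple n (fun i => γ (MvPowerSeries.X i)) i)) =
      vTuple n fun i => res p n k (γ (MvPowerSeries.X i)) from funext fun i => map_vTuple _ _ i] at h
  exact param_eq_zero hLow hn h hg.2 i.1 i.2

/-- Two deformations receiving congruent isomorphisms from the same law have the same parameters. -/
lemma pair_eq (hLaw : LawTarget) (hLow : LowDegreeTarget) (hn : 1 ≤ n) {A : Type} [CommRing A]
    {M : Ideal A} (hpM : (p : A) ∈ M) {S : ℕ} (hS : M ^ S = ⊥) {G : FormalGroup A}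
    {u u' : Fin (n - 1) → A} (hu : ∀ i, u i ∈ M) (hu' : ∀ i, u' i ∈ M) {φ φ' : PowerSeries A}
    (hφ : IsHom G (law p (vTuple n u)) φ) (hφ' : IsHom G (law p (vTuple n u')) φ')
    (h1 : IsUnit (PowerSeries.coeff 1 φ)) (hres : CIn (σ := Unit) M (φ' - φ)) : u = u' := by
  refine (rigid hLaw hLow hn S hpM hS hu hu' ((isHom_inv hφ h1).comp hφ') (cIn_sub_iff.2 ?_)).1
  set π := Ideal.Quotient.mk M
  have hi := PowerSeries.constantCoeff_substInvOfIsUnit φ h1
  change PowerSeries.map π (φ'.subst (φ.substInvOfIsUnit h1)) = PowerSeries.map π PowerSeries.X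
  have h := congrArg (PowerSeries.map π) (PowerSeries.subst_substInvOfIsUnit_right φ hφ.1 h1)
  refine Eq.trans ?_ h
  have he : PowerSeries.map π φ' = PowerSeries.map π φ := cIn_sub_iff.1 hres
  refine (map_subst_one π φ' (a := (φ.substInvOfIsUnit h1 : MvPowerSeries Unit A)) hi).trans ?_
  rw [he]
  exact (map_subst_one π φ (a := (φ.substInvOfIsUnit h1 : MvPowerSeries Unit A)) hi).symm

/-- Congruence of the parameters modulo a power of the maximal ideal. -/
lemma sub_mem_pow (hLaw : LawTarget) (hLow : LowDegreeTarget) (hn : 1 ≤ n) (S : ℕ)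
    {G : FormalGroup (LT p n k ⧸ mIdeal p n k ^ S)} {w w' : Fin (n - 1) → LT p n k}
    (hw : ∀ i, w i ∈ mIdeal p n k) (hw' : ∀ i, w' i ∈ mIdeal p n k)
    {φ φ' : PowerSeries (LT p n k)}
    (hφ : IsHom G ((law p (vTuple n w)).map (Ideal.Quotient.mk (mIdeal p n k ^ S)))
      (PowerSeries.map (Ideal.Quotient.mk (mIdeal p n k ^ S)) φ))
    (hφ' : IsHom G ((law p (vTuple n w')).map (Ideal.Quotient.mk (mIdeal p n k ^ S)))
      (PowerSeries.map (Ideal.Quotient.mk (mIdeal p n k ^ S)) φ'))
    (h1 : res p n k (PowerSeries.coeff 1 φ) ≠ 0)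
    (hres : PowerSeries.map (res p n k) φ' = PowerSeries.map (res p n k) φ) (i : Fin (n - 1)) :
    w i - w' i ∈ mIdeal p n k ^ S := by
  set π := Ideal.Quotient.mk (mIdeal p n k ^ S)
  have hmap : ∀ z : Fin (n - 1) → LT p n k,
      (law p (vTuple n z)).map π = law p (vTuple n fun i => π (z i)) := fun z => by
    rw [law_map]
    congr 1
    funext i
    rw [map_vTuple]
  rw [hmap] at hφ hφ'
  refine Ideal.Quotient.eq.1 (congrFun (pair_eq hLaw hLow hn (M := (mIdeal p n k).map π) ?_ (S := S) ?_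
    (fun i => Ideal.mem_map_of_mem _ (hw i)) (fun i => Ideal.mem_map_of_mem _ (hw' i)) hφ hφ' ?_ ?_) i)
  · rw [← map_natCast π]
    exact Ideal.mem_map_of_mem _ p_mem_mIdeal
  · rw [← Ideal.map_pow, Ideal.map_quotient_self]
  · rw [PowerSeries.coeff_map]
    exact (isUnit_of_res h1).map π
  · intro d
    rw [← map_sub]
    exact Ideal.mem_map_of_mem _ (cIn_of_map_res hres d)

/-- The action is unique. -/
theorem action_unique (hLaw : LawTarget) (hLow : LowDegreeTarget) (hn : 1 ≤ n) {g : PowerSeries k}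
    {r : ℕ} {γ γ' : LT p n k →+* LT p n k} {φ φ' : PowerSeries (LT p n k)} (hg : IsAut p n k g)
    (h : IsAction p n k g r γ φ) (h' : IsAction p n k g r γ' φ') : γ = γ' := by
  refine action_ext (fun a => by rw [h.1, h'.1]) (fun i => ?_)
    (action_mem_mIdeal hLow hn hg h)
  refine sub_eq_zero.1 (eq_zero_of_forall_mem fun S => ?_)
  have hh := isHom_map (Ideal.Quotient.mk (mIdeal p n k ^ S)) h.2.1
  have hh' := isHom_map (Ideal.Quotient.mk (mIdeal p n k ^ S)) h'.2.1
  rw [univLaw_map γ] at hh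
  rw [univLaw_map γ'] at hh'
  refine sub_mem_pow hLaw hLow hn S (action_mem_mIdeal hLow hn hg h)
    (action_mem_mIdeal hLow hn hg h') hh hh' ?_ (by rw [h.2.2, h'.2.2]) i
  rw [← PowerSeries.coeff_map, h.2.2]
  exact hg.2.ne_zero

/-! ### Evaluation at points -/

section Eval

variable {C : Type} [NormedField C] [IsUltrametricDist C] [CompleteSpace C]

omit [IsUltrametricDist C] [CompleteSpace C] in
lemma ev_C' {σ : Type} (x : σ → C) (c : C) : ev x (MvPowerSeries.C c) = c := by
  classical
  rw [ev, tsum_eq_single 0 fun d hd => by rw [coeff_C, if_neg hd, zero_mul]]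
  simp [coeff_C, mon]

omit [PerfectRing k p] in
lemma evK_C {ι : WittVector p k →+* C} (x : Fin (n - 1) → C) (a : WittVector p k) :
    evK ι x (MvPowerSeries.C a) = ι a := by
  rw [evK, map_C, ev_C']

/-- Evaluation at a small point as a ring homomorphism. -/
def evKHom (hE : EvalTarget) {ι : WittVector p k →+* C} (hι : ∀ a, ‖ι a‖ ≤ 1)
    {x : Fin (n - 1) → C} (hx : Small x) : LT p n k →+* C where
  toFun := evK ι x
  map_one' := by rw [← map_one (MvPowerSeries.C (σ := Fin (n - 1))), evK_C, map_one]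
  map_zero' := by rw [← map_zero (MvPowerSeries.C (σ := Fin (n - 1))), evK_C, map_zero]
  map_add' f g := by
    simp only [evK, map_add]
    exact ((hE C).1 _ x _ _ hx (fun d => by rw [coeff_map]; exact hι _)
      (fun d => by rw [coeff_map]; exact hι _)).2.2.2.1
  map_mul' f g := by
    simp only [evK, map_mul]
    exact ((hE C).1 _ x _ _ hx (fun d => by rw [coeff_map]; exact hι _)
      (fun d => by rw [coeff_map]; exact hι _)).2.2.2.2.1

omit [PerfectRing k p] in
lemma norm_evKHom_le (hE : EvalTarget) {ι : WittVector p k →+* C} (hι : ∀ a, ‖ι a‖ ≤ 1)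
    {x : Fin (n - 1) → C} (hx : Small x) (f : LT p n k) : ‖evKHom hE hι hx f‖ ≤ 1 :=
  ((hE C).1 _ x (MvPowerSeries.map ι f) (MvPowerSeries.map ι f) hx
    (fun d => by rw [coeff_map]; exact hι _) (fun d => by rw [coeff_map]; exact hι _)).2.2.2.2.2.1

omit [PerfectRing k p] in
lemma norm_evKHom_lt (hE : EvalTarget) {ι : WittVector p k →+* C} (hι : ∀ a, ‖ι a‖ ≤ 1)
    (hιp : ‖ι (p : WittVector p k)‖ < 1) {x : Fin (n - 1) → C} (hx : Small x) {f : LT p n k}
    (hf : f ∈ mIdeal p n k) : ‖evKHom hE hι hx f‖ < 1 := by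
  refine Submodule.span_induction (p := fun f _ => ‖evKHom hE hι hx f‖ < 1) (fun f hf => ?_)
    (by simp) (fun f g _ _ hf hg => ?_) (fun a f _ hf => ?_) hf
  · rcases hf with rfl | ⟨i, rfl⟩
    · rw [← map_natCast (MvPowerSeries.C (σ := Fin (n - 1)) (R := WittVector p k))]
      exact (congrArg norm (evK_C x _)).trans_lt hιp
    · refine lt_of_eq_of_lt (congrArg norm ?_) (hx i)
      change evK ι x (MvPowerSeries.X i) = x i
      rw [evK, map_X]
      exact ((hE C).2.1 _ x 0 i hx).2
  · rw [map_add]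
    exact (IsUltrametricDist.norm_add_le_max _ _).trans_lt (max_lt hf hg)
  · rw [smul_eq_mul, map_mul, norm_mul]
    exact (mul_le_of_le_one_left (norm_nonneg _) (norm_evKHom_le hE hι hx a)).trans_lt hf

/-- Evaluation of the action. -/
theorem action_formula (hLow : LowDegreeTarget) (hE : EvalTarget) (hn : 1 ≤ n) {g : PowerSeries k}
    {r : ℕ} {γ : LT p n k →+* LT p n k} {φ : PowerSeries (LT p n k)} (hg : IsAut p n k g)
    (hγ : IsAction p n k g r γ φ) {ι : WittVector p k →+* C} (hι : ∀ a, ‖ι a‖ ≤ 1)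
    (hιp : ‖ι (p : WittVector p k)‖ < 1) {x : Fin (n - 1) → C} (hx : Small x) :
    Small (fun i => evK ι x (γ (MvPowerSeries.X i))) ∧
      ∀ f, evK ι x (γ f) = evK (ι.comp ((WittVector.frobenius : WittVector p k →+* _) ^ r))
        (fun i => evK ι x (γ (MvPowerSeries.X i))) f := by
  set y := fun i => evK ι x (γ (MvPowerSeries.X i))
  have hy : Small y := fun i => norm_evKHom_lt hE hι hιp hx (action_mem_mIdeal hLow hn hg hγ i)
  refine ⟨hy, fun f => ?_⟩
  set Φ₁ := (evKHom hE hι hx).comp γ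
  set Φ₂ := evKHom hE (ι := ι.comp ((WittVector.frobenius : WittVector p k →+* _) ^ r))
    (fun a => hι _) hy
  change Φ₁ f = Φ₂ f
  obtain ⟨c, hc0, hc1, hc⟩ : ∃ c : ℝ, 0 ≤ c ∧ c < 1 ∧ ∀ i, ‖y i‖ ≤ c := by
    refine ⟨((Finset.univ.sup fun i => ‖y i‖₊ : NNReal) : ℝ), NNReal.coe_nonneg _, ?_, fun i => ?_⟩
    · rw [← NNReal.coe_one, NNReal.coe_lt_coe, Finset.sup_lt_iff zero_lt_one]
      exact fun i _ => hy i
    · exact_mod_cast Finset.le_sup (f := fun i => ‖y i‖₊) (Finset.mem_univ i)
  have key : ∀ S f, ‖Φ₁ f - Φ₂ f‖ ≤ c ^ S := by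
    intro S
    induction S with
    | zero =>
      intro f
      rw [pow_zero, sub_eq_add_neg]
      refine (IsUltrametricDist.norm_add_le_max _ _).trans (max_le (norm_evKHom_le hE hι hx _) ?_)
      rw [norm_neg]
      exact norm_evKHom_le hE (fun a => hι _) hy _
    | succ S ih =>
      intro f
      obtain ⟨s, hs⟩ := exists_eq_C_add_sum f
      have hX : ∀ i, Φ₁ (MvPowerSeries.X i) = y i ∧ Φ₂ (MvPowerSeries.X i) = y i := fun i => by
        refine ⟨rfl, ?_⟩
        change evK _ y (MvPowerSeries.X i) = y i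
        rw [evK, map_X]
        exact ((hE C).2.1 _ y 0 i hy).2
      have hC : Φ₁ (MvPowerSeries.C (constantCoeff f)) = Φ₂ (MvPowerSeries.C (constantCoeff f)) := by
        change evK ι x (γ _) = evK _ y _
        rw [hγ.1, evK_C, evK_C, RingHom.comp_apply, RingHom.coe_pow]
      rw [hs, map_add, map_add, hC, add_sub_add_left_eq_sub, map_sum, map_sum,
        ← Finset.sum_sub_distrib]
      refine IsUltrametricDist.norm_sum_le_of_forall_le_of_nonneg (pow_nonneg hc0 _) fun i _ => ?_
      rw [map_mul, map_mul, (hX i).1, (hX i).2, ← sub_mul, norm_mul, pow_succ]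
      exact mul_le_mul (ih _) (hc i) (norm_nonneg _) (pow_nonneg hc0 _)
  exact sub_eq_zero.1 (norm_le_zero_iff.1
    (ge_of_tendsto' (tendsto_pow_atTop_nhds_zero_of_lt_one hc0 hc1) fun S => key S f))

end Eval

end Vale.Agent.P217.AU

end
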