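import Vale.Agent.P217.Targets
import Vale.Agent.P217.HomPoints
import Vale.Agent.P217.FunctionalEq

/-!
# P217, action: congruences between compositions of series
-/

noncomputable section

namespace Vale.Agent.P217.AU

open MvPowerSeries Finset

universe u v w

variable {A : Type u} [CommRing A] {σ : Type v} {τ : Type w}

/-- All coefficients lie in `I`. -/
def CIn (I : Ideal A) (f : MvPowerSeries σ A) : Prop := ∀ d, coeff d f ∈ I

lemma cIn_sub_iff {I : Ideal A} {f g : MvPowerSeries σ A} :
    CIn I (f - g) ↔ map (Ideal.Quotient.mk I) f = map (Ideal.Quotient.mk I) g := by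
  constructor
  · intro h
    ext d
    rw [coeff_map, coeff_map, Ideal.Quotient.eq, ← map_sub]
    exact h d
  · intro h d
    rw [map_sub, ← Ideal.Quotient.eq, ← coeff_map, ← coeff_map, h]

/-- A coefficient ideal annihilated by the ideal of the differences. -/
lemma subst_eq {I J : Ideal A} (hIJ : ∀ x ∈ I, ∀ y ∈ J, x * y = 0) {f : MvPowerSeries σ A}
    (hf : CIn I f) {a b : σ → MvPowerSeries τ A} (ha : HasSubst a) (hb : HasSubst b)
    (hab : ∀ s, CIn J (a s - b s)) : f.subst a = f.subst b := by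
  ext e
  rw [coeff_subst ha, coeff_subst hb]
  refine finsum_congr fun d => ?_
  rw [← sub_eq_zero, smul_eq_mul, smul_eq_mul, ← mul_sub]
  refine hIJ _ (hf d) _ ?_
  rw [← map_sub]
  refine (cIn_sub_iff.2 ?_) e
  rw [map_finsuppProd, map_finsuppProd]
  refine Finsupp.prod_congr fun s _ => ?_
  rw [map_pow, map_pow, cIn_sub_iff.1 (hab s)]

lemma psubst_eq {I J : Ideal A} (hIJ : ∀ x ∈ I, ∀ y ∈ J, x * y = 0) {f : PowerSeries A}
    (hf : CIn (σ := Unit) I f) {a b : MvPowerSeries τ A} (ha : constantCoeff a = 0)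
    (hb : constantCoeff b = 0) (hab : CIn J (a - b)) : f.subst a = f.subst b :=
  subst_eq hIJ hf (PowerSeries.HasSubst.of_constantCoeff_zero ha).const
    (PowerSeries.HasSubst.of_constantCoeff_zero hb).const fun _ => hab

/-- `(b + δ) ^ q = b ^ q` for a square zero `δ` killed by `q`. -/
lemma add_pow_eq {R : Type*} [CommRing R] {b δ : R} {q : ℕ} (h2 : δ * δ = 0)
    (hq : (q : R) * δ = 0) : (b + δ) ^ q = b ^ q := by
  have key : ∀ m : ℕ, (b + δ) ^ (m + 1) = b ^ (m + 1) + ((m + 1 : ℕ) : R) * δ * b ^ m := fun m => by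
    induction m with
    | zero => push_cast; ring
    | succ m ih =>
      rw [pow_succ, ih]
      push_cast
      linear_combination ((m : R) + 1) * b ^ m * h2
  rcases q with _ | m
  · simp
  · rw [key, hq, zero_mul, add_zero]

/-- The series that vanish up to degree `D`. -/
def lowI (A : Type u) [CommRing A] (σ : Type v) (D : ℕ) : Ideal (MvPowerSeries σ A) where
  carrier := {f | ∀ d, d.degree ≤ D → coeff d f = 0}
  add_mem' hf hg d hd := by rw [map_add, hf d hd, hg d hd, add_zero]
  zero_mem' _ _ := map_zero _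
  smul_mem' c f hf d hd := by
    classical
    rw [smul_eq_mul, coeff_mul]
    refine Finset.sum_eq_zero fun e he => ?_
    rw [Finset.mem_antidiagonal] at he
    rw [hf e.2 ?_, mul_zero]
    rw [← he, map_add] at hd
    omega

lemma mem_lowI {D : ℕ} {f : MvPowerSeries σ A} :
    f ∈ lowI A σ D ↔ ∀ d, d.degree ≤ D → coeff d f = 0 := Iff.rfl

lemma subst_mem_lowI {D : ℕ} {f : MvPowerSeries σ A} (hf : f ∈ lowI A σ D)
    {a : σ → MvPowerSeries τ A} (ha : HasSubst a) (ha0 : ∀ s, constantCoeff (a s) = 0) :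
    f.subst a ∈ lowI A τ D := by
  intro e he
  refine coeff_of_lt_order (lt_of_lt_of_le ?_ (le_order_subst ha f))
  have h1 : (1 : ℕ∞) ≤ ⨅ s, (a s).order := le_iInf fun s =>
    one_le_order_iff_constCoeff_eq_zero.2 (ha0 s)
  have h2 : ((D + 1 : ℕ) : ℕ∞) ≤ f.order := nat_le_order fun d hd => hf d (by omega)
  calc ((e.degree : ℕ) : ℕ∞) < ((D + 1 : ℕ) : ℕ∞) := by exact_mod_cast Nat.lt_succ_of_le he
    _ ≤ 1 * f.order := by rw [one_mul]; exact h2
    _ ≤ _ := mul_le_mul' h1 le_rfl

lemma subst_sub_mem_lowI {D : ℕ} (f : MvPowerSeries σ A) {a b : σ → MvPowerSeries τ A}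
    (ha : HasSubst a) (hb : HasSubst b) (hab : ∀ s, a s - b s ∈ lowI A τ D) :
    f.subst a - f.subst b ∈ lowI A τ D := by
  intro e he
  rw [map_sub, coeff_subst ha, coeff_subst hb, sub_eq_zero]
  refine finsum_congr fun d => ?_
  congr 1
  have h : d.prod (fun s k => a s ^ k) - d.prod (fun s k => b s ^ k) ∈ lowI A τ D := by
    rw [← Ideal.Quotient.eq, map_finsuppProd, map_finsuppProd]
    refine Finsupp.prod_congr fun s _ => ?_
    rw [map_pow, map_pow, Ideal.Quotient.eq.2 (hab s)]
  rw [← sub_eq_zero, ← map_sub]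
  exact h e he

lemma psubst_sub_mem_lowI {D : ℕ} (f : PowerSeries A) {a b : MvPowerSeries τ A}
    (ha : constantCoeff a = 0) (hb : constantCoeff b = 0) (hab : a - b ∈ lowI A τ D) :
    f.subst a - f.subst b ∈ lowI A τ D :=
  subst_sub_mem_lowI (σ := Unit) f (PowerSeries.HasSubst.of_constantCoeff_zero ha).const
    (PowerSeries.HasSubst.of_constantCoeff_zero hb).const fun _ => hab

/-- Substitution of a series into a power of the variable. -/
lemma coeff_mul_subst_X_pow (f : PowerSeries A) {q : ℕ} (hq : q ≠ 0) (m : ℕ) :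
    PowerSeries.coeff (q * m) (f.subst ((PowerSeries.X : PowerSeries A) ^ q)) =
      PowerSeries.coeff m f := by
  rw [PowerSeries.coeff_subst_X_pow hq, if_pos (dvd_mul_right q m),
    Nat.mul_div_cancel_left m (Nat.pos_of_ne_zero hq), Algebra.algebraMap_self_apply]

/-- The inverse of an invertible homomorphism is a homomorphism. -/
lemma isHom_inv {F G : FormalGroup A} {φ : PowerSeries A} (hφ : IsHom F G φ)
    (hu : IsUnit (PowerSeries.coeff 1 φ)) : IsHom G F (φ.substInvOfIsUnit hu) := by
  set ψ := φ.substInvOfIsUnit hu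
  have h0 : PowerSeries.constantCoeff ψ = 0 := PowerSeries.constantCoeff_substInvOfIsUnit φ hu
  refine ⟨h0, ?_⟩
  have hψa : ∀ {a : MvPowerSeries (Fin 2) A}, constantCoeff a = 0 →
      φ.subst (ψ.subst a) = a := fun {a} ha => by
    rw [← PowerSeries.subst_comp_subst_apply (PowerSeries.HasSubst.of_constantCoeff_zero h0)
      (PowerSeries.HasSubst.of_constantCoeff_zero ha),
      PowerSeries.subst_substInvOfIsUnit_right φ hφ.1 hu,
      PowerSeries.subst_X (PowerSeries.HasSubst.of_constantCoeff_zero ha)]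
  refine Vale.Agent.P217.subst_injective hφ.1 hu (ps_constantCoeff h0 G.zero_constantCoeff)
    (constantCoeff_fadd F (ps_constantCoeff h0 (constantCoeff_X _))
      (ps_constantCoeff h0 (constantCoeff_X _))) ?_
  rw [hψa G.zero_constantCoeff, hφ.subst_fadd (ps_constantCoeff h0 (constantCoeff_X _))
    (ps_constantCoeff h0 (constantCoeff_X _)), hψa (constantCoeff_X _), hψa (constantCoeff_X _)]
  exact (congrFun subst_self _).symm.trans (congrArg (fun a => MvPowerSeries.subst a G.toPowerSeries)
    (funext fun i => by fin_cases i <;> rfl))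

lemma isHom_X (F : FormalGroup A) : IsHom F F (PowerSeries.X : PowerSeries A) := by
  refine ⟨PowerSeries.constantCoeff_X, ?_⟩
  rw [PowerSeries.subst_X (PowerSeries.HasSubst.of_constantCoeff_zero F.zero_constantCoeff),
    PowerSeries.subst_X (PowerSeries.HasSubst.X _), PowerSeries.subst_X (PowerSeries.HasSubst.X _)]
  exact (congrFun subst_self _).symm.trans (congrArg (fun a => MvPowerSeries.subst a F.toPowerSeries)
    (funext fun i => by fin_cases i <;> rfl))

lemma isHom_mulSer (F : FormalGroup A) (hF : F.IsComm) : ∀ m, IsHom F F (mulSer F m)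
  | 0 => IsHom.zero F F
  | m + 1 => IsHom.fadd hF (isHom_X F) (isHom_mulSer F hF m)

end Vale.Agent.P217.AU

end
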