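import Vale.Agent.P217.ActionUnique.Unique
import Vale.Agent.P217.Main

/-!
# P217, action: deep elements of the stabilizer act trivially modulo high powers of the maximal ideal

`[p]^N` applied to a lift of an endomorphism of the special fibre is an endomorphism of the universal
law modulo `m^(N+1)`, as `[p]` gains one power of `m` on congruences.
-/

noncomputable section

namespace Vale.Agent.P217.AU

open MvPowerSeries Finset

variable {p : ℕ} [hp : Fact p.Prime] {n : ℕ}

/-- A series congruent to `X ^ q` modulo `M` is insensitive to changes killed by `M`. -/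
lemma subst_congr_gain {A : Type} [CommRing A] {τ : Type} {M E : Ideal A} (hEM : E ≤ M)
    (hz : ∀ x ∈ M, ∀ y ∈ E, x * y = 0) {P : PowerSeries A} {q : ℕ} (hqM : (q : A) ∈ M)
    (hP : CIn (σ := Unit) M (P - (PowerSeries.X : PowerSeries A) ^ q))
    {a b : MvPowerSeries τ A} (ha : constantCoeff a = 0) (hb : constantCoeff b = 0)
    (hab : CIn E (a - b)) : P.subst a = P.subst b := by
  classical
  have hsa := PowerSeries.HasSubst.of_constantCoeff_zero ha
  have hsb := PowerSeries.HasSubst.of_constantCoeff_zero hb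
  have h2 : (a - b) * (a - b) = 0 := MvPowerSeries.ext fun d => by
    rw [map_zero, MvPowerSeries.coeff_mul]
    exact Finset.sum_eq_zero fun c _ => hz _ (hEM (hab _)) _ (hab _)
  have hq0 : (q : MvPowerSeries τ A) * (a - b) = 0 := MvPowerSeries.ext fun d => by
    rw [← map_natCast (C (σ := τ) (R := A)), coeff_C_mul, map_zero]
    exact hz _ hqM _ (hab _)
  have hpow : a ^ q = b ^ q := by
    conv_lhs => rw [show a = b + (a - b) by ring]
    exact add_pow_eq h2 hq0
  have hXa : ((PowerSeries.X : PowerSeries A) ^ q).subst a = a ^ q := by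
    rw [PowerSeries.subst_pow hsa, PowerSeries.subst_X hsa]
  have hXb : ((PowerSeries.X : PowerSeries A) ^ q).subst b = b ^ q := by
    rw [PowerSeries.subst_pow hsb, PowerSeries.subst_X hsb]
  rw [← sub_add_cancel P ((PowerSeries.X : PowerSeries A) ^ q), PowerSeries.subst_add hsa,
    PowerSeries.subst_add hsb, hXa, hXb, hpow, psubst_eq hz hP ha hb hab]

variable {k : Type} [Field k] [CharP k p] [Fintype k]

omit [Fintype k] in
lemma res_map_univ_pSer (hLow : LowDegreeTarget) (hn : 1 ≤ n) :
    PowerSeries.map (res p n k) (mulSer (univLaw p n k) p) =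
      (PowerSeries.X : PowerSeries k) ^ p ^ n := by
  rw [map_mulSer, univLaw_res]
  exact (hLow p k).2.2.2 n hn inferInstance

/-- An endomorphism of the special fibre of the form `a ∘ X ^ (p ^ (n N))` lifts modulo `m^(N+1)`. -/
lemma exists_lift (hLaw : LawTarget) (hLow : LowDegreeTarget) (hn : 1 ≤ n) {a : PowerSeries k}
    (ha : IsEndo (honda p n k) a) : ∀ N : ℕ, ∃ ψ : PowerSeries (LT p n k),
      PowerSeries.constantCoeff ψ = 0 ∧ PowerSeries.map (res p n k) ψ = a ^ p ^ (n * N) ∧
      CIn (mIdeal p n k ^ (N + 1)) (ψ.subst (univLaw p n k).toPowerSeries -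
        fadd (univLaw p n k) (ψ.subst (x0 : MvPowerSeries (Fin 2) (LT p n k))) (ψ.subst x1)) := by
  intro N
  induction N with
  | zero =>
    set α : PowerSeries (LT p n k) := PowerSeries.mk fun m =>
      MvPowerSeries.C (WittVector.teichmuller p (PowerSeries.coeff m a)) with hα
    have hα0 : PowerSeries.constantCoeff α = 0 := by
      rw [← PowerSeries.coeff_zero_eq_constantCoeff_apply, hα, PowerSeries.coeff_mk,
        PowerSeries.coeff_zero_eq_constantCoeff_apply, ha.1, WittVector.teichmuller_zero, map_zero]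
    have hres : PowerSeries.map (res p n k) α = a := PowerSeries.ext fun m => by
      rw [PowerSeries.coeff_map, hα, PowerSeries.coeff_mk]
      simp [res, WittVector.teichmuller_coeff_zero]
    refine ⟨α, hα0, by rw [Nat.mul_zero, pow_zero, pow_one, hres], fun d => ?_⟩
    rw [zero_add, pow_one, mem_mIdeal_iff, ← coeff_map, map_sub, map_sub,
      map_subst_one _ _ (univLaw p n k).zero_constantCoeff,
      map_fadd _ _ (ps_constantCoeff hα0 (constantCoeff_X _))
        (ps_constantCoeff hα0 (constantCoeff_X _)),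
      map_subst_one _ _ (constantCoeff_X _), map_subst_one _ _ (constantCoeff_X _), map_X, map_X,
      hres, ← FormalGroup.map_toPowerSeries, univLaw_res, ← ha.2, sub_self]
  | succ N ih =>
    obtain ⟨ψ, hψ0, hψres, hψ⟩ := ih
    set F := univLaw p n k with hF
    set P := mulSer F p with hPdef
    have hsψ : PowerSeries.HasSubst ψ := PowerSeries.HasSubst.of_constantCoeff_zero hψ0
    have hP0 : PowerSeries.constantCoeff P = 0 := mulSer_const F p
    refine ⟨P.subst ψ, ?_, ?_, ?_⟩
    · exact PowerSeries.constantCoeff_subst_eq_zero hψ0 P hP0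
    · refine (map_subst_one (res p n k) P (a := (ψ : MvPowerSeries Unit (LT p n k))) hψ0).trans ?_
      have hsa : PowerSeries.HasSubst (a ^ p ^ (n * N)) :=
        PowerSeries.HasSubst.of_constantCoeff_zero' (by
          rw [map_pow, ha.1, zero_pow (pow_pos hp.out.pos _).ne'])
      rw [res_map_univ_pSer hLow hn]
      change PowerSeries.subst (PowerSeries.map (res p n k) ψ) _ = _
      rw [hψres, PowerSeries.subst_pow hsa, PowerSeries.subst_X hsa, ← pow_mul, ← pow_add,
        show n * N + n = n * (N + 1) by ring]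
    · set π := Ideal.Quotient.mk (mIdeal p n k ^ (N + 1 + 1)) with hπ
      have hhom := isHom_mulSer F ((hLaw p).1 _ _) p
      have e1 : PowerSeries.subst F.toPowerSeries (P.subst ψ : PowerSeries (LT p n k)) =
          P.subst (ψ.subst F.toPowerSeries) :=
        PowerSeries.subst_comp_subst_apply hsψ
          (PowerSeries.HasSubst.of_constantCoeff_zero F.zero_constantCoeff) P
      have e2 : ∀ i : Fin 2, PowerSeries.subst (MvPowerSeries.X i : MvPowerSeries (Fin 2) (LT p n k))
          (P.subst ψ : PowerSeries (LT p n k)) =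
          P.subst (ψ.subst (MvPowerSeries.X i : MvPowerSeries (Fin 2) (LT p n k))) := fun i =>
        PowerSeries.subst_comp_subst_apply hsψ
          (PowerSeries.HasSubst.of_constantCoeff_zero (constantCoeff_X _)) P
      have hc : constantCoeff (fadd F (ψ.subst (x0 : MvPowerSeries (Fin 2) (LT p n k)))
          (ψ.subst x1)) = 0 :=
        constantCoeff_fadd F (ps_constantCoeff hψ0 (constantCoeff_X _))
          (ps_constantCoeff hψ0 (constantCoeff_X _))
      have hd : constantCoeff (ψ.subst F.toPowerSeries) = 0 :=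
        ps_constantCoeff hψ0 F.zero_constantCoeff
      rw [e1, e2, e2, ← hhom.subst_fadd (ps_constantCoeff hψ0 (constantCoeff_X _))
        (ps_constantCoeff hψ0 (constantCoeff_X _))]
      refine cIn_sub_iff.2 ?_
      rw [← hπ, map_subst_one π P hd, map_subst_one π P hc]
      refine subst_congr_gain (M := (mIdeal p n k).map π) (E := (mIdeal p n k ^ (N + 1)).map π)
        (Ideal.map_mono (Ideal.pow_le_self (Nat.succ_ne_zero N))) ?_ (q := p ^ n) ?_ (fun d => ?_)
        (by rw [constantCoeff_map, hd, map_zero]) (by rw [constantCoeff_map, hc, map_zero])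
        (fun d => ?_)
      · intro x hx y hy
        have hxy := Ideal.mul_mem_mul hx hy
        rw [← Ideal.map_mul, ← pow_succ', hπ, Ideal.map_quotient_self] at hxy
        exact Ideal.mem_bot.1 hxy
      · rw [← map_natCast π]
        refine Ideal.mem_map_of_mem _ ?_
        rw [Nat.cast_pow]
        exact Ideal.pow_mem_of_mem _ p_mem_mIdeal _ (by omega)
      · rw [← PowerSeries.map_X π, ← map_pow, ← map_sub]
        refine Ideal.mem_map_of_mem _ (cIn_of_map_res ?_ d)
        rw [hPdef, res_map_univ_pSer hLow hn, map_pow, PowerSeries.map_X]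
      · rw [← map_sub, coeff_map]
        exact Ideal.mem_map_of_mem _ (hψ d)

omit [Fintype k] in
lemma subst_X_pow_eq {a : PowerSeries k} {r : ℕ} (h : ∀ m, PowerSeries.coeff m a ^ p ^ r =
    PowerSeries.coeff m a) :
    a.subst ((PowerSeries.X : PowerSeries k) ^ p ^ r) = a ^ p ^ r := by
  have hm := map_iterateFrobenius_expand p hp.out.ne_zero (a : MvPowerSeries Unit k) r
  rw [map_expand] at hm
  have hfix : MvPowerSeries.map (iterateFrobenius k p r) (a : MvPowerSeries Unit k) = a := by
    refine MvPowerSeries.ext fun d => ?_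
    rw [coeff_map, iterateFrobenius_def]
    obtain ⟨m, rfl⟩ : ∃ m, d = Finsupp.single () m := ⟨d (), Finsupp.unique_single d⟩
    exact h m
  rw [hfix, expand, substAlgHom_apply] at hm
  exact hm

lemma coeff_pow_card (hk : Fintype.card k = p ^ n) (N : ℕ) (c : k) : c ^ p ^ (n * N) = c := by
  rw [pow_mul, ← hk]
  exact FiniteField.pow_card_pow N c

omit [Fintype k] in
lemma coeff_one_gDeep (hn : 1 ≤ n) {a : PowerSeries k} (ha : PowerSeries.constantCoeff a = 0)
    {N : ℕ} (hN : 1 ≤ N) : PowerSeries.coeff 1 (gDeep p n k a N) = 1 := by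
  set b : PowerSeries k := a.subst ((PowerSeries.X : PowerSeries k) ^ p ^ (n * N)) with hb
  have hQ : 2 ≤ p ^ (n * N) := le_trans hp.out.two_le
    (Nat.le_self_pow (Nat.mul_ne_zero (by omega) (by omega)) p)
  have hb0 : PowerSeries.constantCoeff b = 0 := by
    refine PowerSeries.constantCoeff_subst_eq_zero ?_ a ha
    change PowerSeries.constantCoeff ((PowerSeries.X : PowerSeries k) ^ p ^ (n * N)) = 0
    rw [map_pow, PowerSeries.constantCoeff_X, zero_pow (by omega)]
  have hb1 : (b : MvPowerSeries Unit k) ∈ lowI k Unit 1 := by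
    intro d hd
    obtain ⟨m, rfl⟩ : ∃ m, d = Finsupp.single () m := ⟨d (), Finsupp.unique_single d⟩
    rw [Finsupp.degree_single] at hd
    change PowerSeries.coeff m b = 0
    rw [hb, PowerSeries.coeff_subst_X_pow (by omega)]
    interval_cases m
    · simp [ha]
    · rw [if_neg fun h => absurd (Nat.le_of_dvd one_pos h) (by omega)]
  have hsub := subst_sub_mem_lowI (D := 1) (honda p n k).toPowerSeries
    (a := ![(PowerSeries.X : PowerSeries k), b]) (b := ![(PowerSeries.X : PowerSeries k), 0])
    (hasSubst_pair PowerSeries.constantCoeff_X hb0)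
    (hasSubst_pair PowerSeries.constantCoeff_X (map_zero _))
    (fun s => by
      fin_cases s
      · simp
      · simpa using hb1)
  have h0 : (honda p n k).toPowerSeries.subst ![(PowerSeries.X : PowerSeries k), 0] =
      (PowerSeries.X : PowerSeries k) :=
    FormalGroup.add_zero (honda p n k) (PowerSeries.HasSubst.of_constantCoeff_zero'
      PowerSeries.constantCoeff_X)
  have h1 := hsub (Finsupp.single () 1) (by simp)
  rw [h0, map_sub, sub_eq_zero] at h1
  exact h1.trans PowerSeries.coeff_one_X

/-- Deep elements of the stabilizer are automorphisms. -/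
theorem gDeep_isAut (hLaw : LawTarget) (hn : 1 ≤ n) {a : PowerSeries k}
    (ha : IsEndo (honda p n k) a) {N : ℕ} (hN : 1 ≤ N) : IsAut p n k (gDeep p n k a N) := by
  refine ⟨IsHom.fadd ((hLaw p).1 _ _) (isHom_X _)
    ((IsHom.pow_prime_pow _ honda_coeff_fixed (n * N)).comp ha), ?_⟩
  rw [coeff_one_gDeep hn ha.1 hN]
  exact isUnit_one

/-- Deep elements of the stabilizer act trivially modulo `m^N`. -/
theorem action_deep (hLaw : LawTarget) (hLow : LowDegreeTarget) (hn : 1 ≤ n)
    (hk : Fintype.card k = p ^ n) {a : PowerSeries k} (ha : IsEndo (honda p n k) a) {N : ℕ}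
    (hN : 1 ≤ N) {γ : LT p n k →+* LT p n k} {φ : PowerSeries (LT p n k)}
    (hγ : IsAction p n k (gDeep p n k a N) 0 γ φ) (i : Fin (n - 1)) :
    γ (MvPowerSeries.X i) - MvPowerSeries.X i ∈ mIdeal p n k ^ N := by
  have hg := gDeep_isAut hLaw hn ha hN
  obtain ⟨ψ, hψ0, hψres, hψ⟩ := exists_lift hLaw hLow hn ha N
  refine Ideal.pow_le_pow_right (Nat.le_succ N) ?_
  set π := Ideal.Quotient.mk (mIdeal p n k ^ (N + 1)) with hπ
  set F := univLaw p n k with hF
  set φ₀ : PowerSeries (LT p n k) := fadd F (PowerSeries.X : PowerSeries (LT p n k)) ψ with hφ₀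
  have hres : PowerSeries.map (res p n k) φ₀ = gDeep p n k a N := by
    refine (map_fadd (res p n k) F PowerSeries.constantCoeff_X hψ0).trans ?_
    rw [hF, univLaw_res, gDeep, subst_X_pow_eq fun m => coeff_pow_card hk N _, ← hψres]
    exact congrArg (fun z => fadd (honda p n k) z _) (PowerSeries.map_X _)
  have hψπ : IsHom (F.map π) (F.map π) (PowerSeries.map π ψ) := by
    refine ⟨by rw [← PowerSeries.coeff_zero_eq_constantCoeff_apply, PowerSeries.coeff_map,
      PowerSeries.coeff_zero_eq_constantCoeff_apply, hψ0, map_zero], ?_⟩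
    have e := cIn_sub_iff.1 hψ
    rw [← hπ, map_subst_one π ψ F.zero_constantCoeff,
      map_fadd π F (ps_constantCoeff hψ0 (constantCoeff_X _)) (ps_constantCoeff hψ0 (constantCoeff_X _)),
      map_subst_one π ψ (constantCoeff_X _), map_subst_one π ψ (constantCoeff_X _), map_X, map_X] at e
    exact e
  have hFcomm : (F.map π).IsComm := by
    rw [hF, univLaw_map π]
    exact (hLaw p).1 _ _
  have h0 : IsHom (F.map π) (F.map π) (PowerSeries.map π φ₀) := by
    have e : PowerSeries.map π φ₀ =
        fadd (F.map π) (PowerSeries.X : PowerSeries (LT p n k ⧸ mIdeal p n k ^ (N + 1)))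
          (PowerSeries.map π ψ) := by
      refine (map_fadd π F PowerSeries.constantCoeff_X hψ0).trans ?_
      exact congrArg (fun z => fadd (F.map π) z _) (PowerSeries.map_X _)
    rw [e]
    exact IsHom.fadd hFcomm (isHom_X _) hψπ
  have h1 := isHom_map π hγ.2.1
  rw [univLaw_map γ] at h1
  refine sub_mem_pow hLaw hLow hn (N + 1) (w := fun i => γ (MvPowerSeries.X i))
    (w' := fun i => (MvPowerSeries.X i : LT p n k)) (action_mem_mIdeal hLow hn hg hγ)
    X_mem_mIdeal h1 h0 ?_ (by rw [hres, hγ.2.2]) i
  rw [← PowerSeries.coeff_map, hγ.2.2]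
  exact hg.2.ne_zero

end Vale.Agent.P217.AU

end
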