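import Vale.Agent.P217.ActionUnique.Basic
import Vale.Agent.P217.Formal.Log
import Mathlib.Data.Nat.Choose.Factorization

/-!
# P217, action: rigidity of deformations of the Honda law

Over a ring with a nilpotent ideal `M ∋ p`, a homomorphism between two deformations of the Honda law
that is the identity modulo `M` is the identity, and the parameters agree.
-/

noncomputable section

namespace Vale.Agent.P217.AU

open MvPowerSeries Finset

variable {p : ℕ} [hp : Fact p.Prime] {n : ℕ}

lemma charP_of_cast_eq_zero {B : Type*} [CommRing B] [Nontrivial B] (h : (p : B) = 0) :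
    CharP B p := by
  rcases hp.out.eq_one_or_self_of_dvd _ (ringChar.dvd h) with h1 | h1
  · exact absurd h1 (CharP.ringChar_ne_one)
  · exact h1 ▸ ringChar.charP B

lemma isHom_map {A B : Type*} [CommRing A] [CommRing B] (π : A →+* B) {F G : FormalGroup A}
    {φ : PowerSeries A} (h : IsHom F G φ) : IsHom (F.map π) (G.map π) (PowerSeries.map π φ) := by
  refine ⟨by rw [← PowerSeries.coeff_zero_eq_constantCoeff_apply, PowerSeries.coeff_map,
    PowerSeries.coeff_zero_eq_constantCoeff_apply, h.1, map_zero], ?_⟩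
  have e := congrArg (MvPowerSeries.map π) h.2
  rw [map_subst_one π φ F.zero_constantCoeff, map_fadd π G (ps_constantCoeff h.1 (constantCoeff_X _))
    (ps_constantCoeff h.1 (constantCoeff_X _)), map_subst_one π φ (constantCoeff_X _),
    map_subst_one π φ (constantCoeff_X _), map_X, map_X] at e
  exact e

variable {A : Type} [CommRing A]

lemma law_zero (hLaw : LawTarget) (p : ℕ) [Fact p.Prime] (A : Type) [CommRing A] :
    (law p (fun _ => (0 : A))).toPowerSeries = x0 + x1 := by
  have hz : (law p (fun _ => (0 : ℤ))).toPowerSeries = x0 + x1 := by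
    have hu : IsUnit (p : ℚ) :=
      isUnit_iff_ne_zero.2 (Nat.cast_ne_zero.2 (Fact.out : p.Prime).ne_zero)
    have h := (hLaw p).2 ℚ (fun _ => 0) hu
    have hL : ∀ J, L p (fun _ => (0 : ℚ)) J = if J = 0 then 1 else 0 := fun J => by
      rcases J with _ | J
      · simp [L_zero]
      · rw [L_succ, if_neg (Nat.succ_ne_zero J)]
        exact Finset.sum_eq_zero fun i _ => by
          rw [zero_pow (pow_ne_zero _ (Fact.out : p.Prime).ne_zero), zero_mul, zero_mul]
    have hlog : pLog p (fun _ => (0 : ℚ)) = PowerSeries.X := by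
      ext m
      rw [PowerSeries.coeff_X]
      by_cases hm : ∃ J, m = p ^ J
      · obtain ⟨J, rfl⟩ := hm
        rw [coeff_pLog_pow, hL]
        rcases J with _ | J
        · simp
        · have : p ^ (J + 1) ≠ 1 := (Nat.one_lt_pow (Nat.succ_ne_zero J)
            (Fact.out : p.Prime).one_lt).ne'
          rw [if_neg (Nat.succ_ne_zero J), if_neg this, zero_mul]
      · rw [not_exists] at hm
        rw [coeff_pLog_other _ hm, if_neg]
        intro h1
        exact hm 0 (by simp [h1])
    rw [HasLog, hlog,
      PowerSeries.subst_X (PowerSeries.HasSubst.of_constantCoeff_zero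
        (law p (fun _ => (0 : ℚ))).zero_constantCoeff),
      PowerSeries.subst_X (PowerSeries.HasSubst.X _),
      PowerSeries.subst_X (PowerSeries.HasSubst.X _)] at h
    refine MvPowerSeries.ext fun d => RingHom.injective_int (Int.castRingHom ℚ) ?_
    rw [← coeff_map, ← coeff_map, map_add (MvPowerSeries.map (Int.castRingHom ℚ)), map_X, map_X, ← h,
      ← FormalGroup.map_toPowerSeries, law_map]
    simp
  have e := congrArg (MvPowerSeries.map (Int.castRingHom A)) hz
  rw [← FormalGroup.map_toPowerSeries, law_map, map_add, map_X, map_X] at e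
  simpa using e

lemma honda_low (hLaw : LawTarget) (hLow : LowDegreeTarget) (hn : 1 ≤ n) :
    (honda p n A).toPowerSeries - (x0 + x1) ∈ lowI A (Fin 2) (p ^ n - 1) := by
  intro d hd
  have hpn : 0 < p ^ n := pow_pos hp.out.pos n
  have hdd : deg d ≤ p ^ n := by
    change d.degree ≤ p ^ n
    omega
  have h := (hLow p A).1 (vHonda n) (fun _ => 0) n hn
    (fun i _ hi => by simp [vHonda, hi.ne]) d hdd
  rw [law_zero hLaw, ← honda, ← map_sub] at h
  rw [h, show coeff d (cPoly p A n) = 0 from if_neg ?_, mul_zero]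
  rintro ⟨h2, -, -⟩
  have : d.degree = d 0 + d 1 := by
    simp [Finsupp.degree_eq_sum, Fin.sum_univ_two]
  omega

lemma coeff_add_pow (d : Fin 2 →₀ ℕ) (k : ℕ) :
    coeff d ((x0 + x1 : MvPowerSeries (Fin 2) A) ^ k) =
      if d 0 + d 1 = k then (k.choose (d 0) : A) else 0 := by
  classical
  have hmon : ∀ i : ℕ, (x0 : MvPowerSeries (Fin 2) A) ^ i * x1 ^ (k - i) *
      ((k.choose i : ℕ) : MvPowerSeries (Fin 2) A) =
      monomial (Finsupp.single 0 i + Finsupp.single 1 (k - i)) (k.choose i : A) := fun i => by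
    rw [X_pow_eq, X_pow_eq, monomial_mul_monomial, one_mul, mul_comm, ← map_natCast
      (C (σ := Fin 2) (R := A)), ← monomial_zero_eq_C_apply, monomial_mul_monomial, zero_add,
      mul_one]
  rw [add_pow, map_sum, Finset.sum_congr rfl fun i _ => by rw [hmon, coeff_monomial]]
  by_cases h : d 0 + d 1 = k
  · rw [if_pos h, Finset.sum_eq_single (d 0), if_pos]
    · exact Finsupp.ext fun j => by fin_cases j <;> simp <;> omega
    · intro i _ hi
      refine if_neg fun e => hi ?_
      simp [e]
    · intro hc
      simp at hc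
      omega
  · rw [if_neg h]
    refine Finset.sum_eq_zero fun i hi => if_neg fun e => h ?_
    rw [Finset.mem_range] at hi
    simp [e]
    omega

/-- `∀ x ∈ E, ∀ y ∈ M, x * y = 0` with `E ≤ M`: first order rigidity. -/
lemma rigid_step (hLaw : LawTarget) (hLow : LowDegreeTarget) (hn : 1 ≤ n) {M E : Ideal A}
    (hpM : (p : A) ∈ M) (hnil : IsNilpotent (p : A)) (hEM : E ≤ M)
    (hz : ∀ x ∈ E, ∀ y ∈ M, x * y = 0) {u u' : Fin (n - 1) → A} (hu : ∀ i, u i ∈ M)
    (hu' : ∀ i, u' i ∈ M) (hd : ∀ i, u i - u' i ∈ E) {φ : PowerSeries A}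
    (hφ : IsHom (law p (vTuple n u)) (law p (vTuple n u')) φ)
    (hφE : CIn (σ := Unit) E (φ - PowerSeries.X)) : u = u' ∧ φ = PowerSeries.X := by
  by_cases hM : M = ⊤
  · have hE : ∀ x ∈ E, x = 0 := fun x hx => by
      simpa using hz x hx 1 (hM ▸ Submodule.mem_top)
    exact ⟨funext fun i => sub_eq_zero.1 (hE _ (hd i)),
      sub_eq_zero.1 (MvPowerSeries.ext fun d => by rw [hE _ (hφE d), map_zero])⟩
  have : Nontrivial (A ⧸ M) := Ideal.Quotient.nontrivial_iff.2 hM
  have : CharP (A ⧸ M) p := charP_of_cast_eq_zero (by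
    rw [← map_natCast (Ideal.Quotient.mk M), Ideal.Quotient.eq_zero_iff_mem.2 hpM])
  set π := Ideal.Quotient.mk M with hπ
  set δ : PowerSeries A := φ - PowerSeries.X with hδ
  have hφ' : φ = PowerSeries.X + δ := by rw [hδ, add_sub_cancel]
  have hδ0 : PowerSeries.constantCoeff δ = 0 := by
    rw [hδ, map_sub, hφ.1, PowerSeries.constantCoeff_X, sub_zero]
  have hlawH : ∀ w : Fin (n - 1) → A, (∀ i, w i ∈ M) →
      (law p (vTuple n w)).map π = honda p n (A ⧸ M) := fun w hw => by
    rw [law_map, honda]
    congr 1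
    funext i
    rw [map_vTuple, ← vTuple_zero]
    congr 1
    funext j
    exact Ideal.Quotient.eq_zero_iff_mem.2 (hw j)
  have hH : ∀ w : Fin (n - 1) → A, (∀ i, w i ∈ M) →
      CIn M ((law p (vTuple n w)).toPowerSeries - (honda p n A).toPowerSeries) := fun w hw => by
    have hh : (honda p n A).map π = honda p n (A ⧸ M) := by
      rw [honda, honda, law_map]
      congr 1
      funext i
      simp [vHonda, apply_ite]
    rw [cIn_sub_iff, ← FormalGroup.map_toPowerSeries, ← FormalGroup.map_toPowerSeries, ← hπ,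
      hlawH w hw, hh]
  set F := law p (vTuple n u) with hF
  set F' := law p (vTuple n u') with hF'
  set H := honda p n A with hHdef
  have hsub : ∀ {τ : Type} {c : MvPowerSeries τ A}, constantCoeff c = 0 →
      φ.subst c = c + δ.subst c := fun {τ c} hc => by
    have hs := PowerSeries.HasSubst.of_constantCoeff_zero hc
    rw [hφ', PowerSeries.subst_add hs, PowerSeries.subst_X hs]
  have hδE : ∀ {τ : Type} {c : MvPowerSeries τ A}, constantCoeff c = 0 → CIn E (δ.subst c) := by
    intro τ c hc
    have h0 : MvPowerSeries.map (Ideal.Quotient.mk E) (δ.subst c) = 0 := by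
      rw [map_subst_one _ _ hc]
      have : PowerSeries.map (Ideal.Quotient.mk E) δ = 0 := PowerSeries.ext fun m => by
        rw [PowerSeries.coeff_map, map_zero, Ideal.Quotient.eq_zero_iff_mem]
        exact hφE _
      rw [this, ← PowerSeries.coe_substAlgHom (PowerSeries.HasSubst.of_constantCoeff_zero
        (show constantCoeff (MvPowerSeries.map (Ideal.Quotient.mk E) c) = 0 by
          rw [constantCoeff_map, hc, map_zero])), map_zero]
    intro d
    rw [← Ideal.Quotient.eq_zero_iff_mem, ← coeff_map, h0, map_zero]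
  have hpair : ∀ s : Fin 2, CIn E (![φ.subst (x0 : MvPowerSeries (Fin 2) A), φ.subst x1] s -
      MvPowerSeries.X s) := fun s => by
    fin_cases s
    · change CIn E (φ.subst (x0 : MvPowerSeries (Fin 2) A) - x0)
      rw [hsub (constantCoeff_X _), add_sub_cancel_left]
      exact hδE (constantCoeff_X _)
    · change CIn E (φ.subst (x1 : MvPowerSeries (Fin 2) A) - x1)
      rw [hsub (constantCoeff_X _), add_sub_cancel_left]
      exact hδE (constantCoeff_X _)
  have hc0 : ∀ s : Fin 2,
      constantCoeff (![φ.subst (x0 : MvPowerSeries (Fin 2) A), φ.subst x1] s) = 0 := fun s => by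
    fin_cases s <;> exact ps_constantCoeff hφ.1 (constantCoeff_X _)
  have hs := hasSubst_of_constantCoeff_zero hc0
  have hME : ∀ x ∈ M, ∀ y ∈ E, x * y = 0 := fun x hx y hy => by rw [mul_comm]; exact hz y hy x hx
  -- the homomorphism equation to first order
  have e : F.toPowerSeries + δ.subst H.toPowerSeries = (F'.toPowerSeries - H.toPowerSeries) +
      H.toPowerSeries.subst ![φ.subst (x0 : MvPowerSeries (Fin 2) A), φ.subst x1] := by
    have h := hφ.2
    rw [hsub F.zero_constantCoeff,
      psubst_eq (fun x hx y hy => hz x hx y hy) hφE F.zero_constantCoeff H.zero_constantCoeff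
        (hH u hu), fadd] at h
    rw [h]
    conv_lhs => rw [← sub_add_cancel F'.toPowerSeries H.toPowerSeries, subst_add hs]
    rw [subst_eq hME (hH u' hu') hs HasSubst.X hpair, congrFun subst_self, id]
  set D := p ^ n - 1
  set T := lowI A (Fin 2) D
  have hlow := honda_low (A := A) (p := p) hLaw hLow hn
  have hT : (F.toPowerSeries - F'.toPowerSeries) +
      (δ.subst (x0 + x1 : MvPowerSeries (Fin 2) A) - δ.subst (x0 : MvPowerSeries (Fin 2) A) -
        δ.subst (x1 : MvPowerSeries (Fin 2) A)) ∈ T := by
    have h1 : δ.subst H.toPowerSeries - δ.subst (x0 + x1 : MvPowerSeries (Fin 2) A) ∈ T :=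
      psubst_sub_mem_lowI δ H.zero_constantCoeff (by simp) hlow
    have h2 := subst_mem_lowI hlow hs hc0
    rw [← coe_substAlgHom hs, map_sub, map_add, coe_substAlgHom hs, subst_X hs, subst_X hs] at h2
    simp only [Matrix.cons_val_zero, Matrix.cons_val_one] at h2
    rw [hsub (constantCoeff_X (0 : Fin 2)), hsub (constantCoeff_X (1 : Fin 2))] at h2 e
    rw [← hHdef] at h2 hlow
    have h3 := T.sub_mem (T.sub_mem h2 h1) hlow
    convert h3 using 1
    linear_combination e
  -- equality of the parameters
  have hv : ∀ j : ℕ, ∀ hj : j < n - 1, u ⟨j, hj⟩ = u' ⟨j, hj⟩ := by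
    intro j
    induction j using Nat.strong_induction_on with
    | _ j ih =>
    intro hj
    have hagree : ∀ i, 1 ≤ i → i < j + 1 → vTuple n u i = vTuple n u' i := fun i h1 h2 => by
      rw [vTuple, vTuple, dif_pos ⟨h1, by omega⟩, dif_pos ⟨h1, by omega⟩]
      exact ih (i - 1) (by omega) _
    set K := p ^ (j + 1)
    set k := p ^ j
    have hkK : k < K := Nat.pow_lt_pow_right hp.out.one_lt (Nat.lt_succ_self j)
    have hk0 : 0 < k := pow_pos hp.out.pos j
    set d : Fin 2 →₀ ℕ := Finsupp.single 0 k + Finsupp.single 1 (K - k) with hdd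
    have hd0 : d 0 = k := by simp [hdd]
    have hd1 : d 1 = K - k := by simp [hdd]
    have hdeg : d.degree = K := by
      simp [Finsupp.degree_eq_sum, Fin.sum_univ_two, hd0, hd1]
      omega
    have hKn : K < p ^ n := Nat.pow_lt_pow_right hp.out.one_lt (by omega)
    have h := hT d (by omega)
    rw [map_add, map_sub, map_sub, map_sub,
      (hLow p A).1 (vTuple n u) (vTuple n u') (j + 1) (Nat.le_add_left 1 j) hagree d
        (show d.degree ≤ K by omega)] at h
    have hpC : ∃ m : ℕ, K.choose k = p * m ∧ ¬p ∣ m := by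
      have hf : (K.choose k).factorization p = 1 := by
        rw [Nat.factorization_choose_prime_pow hp.out hkK.le hk0.ne',
          hp.out.factorization_pow, Finsupp.single_eq_same]
        omega
      have hC0 : K.choose k ≠ 0 := (Nat.choose_pos hkK.le).ne'
      refine ⟨K.choose k / p, ?_, ?_⟩
      · rw [Nat.mul_div_cancel']
        exact Nat.dvd_of_factorization_pos (by omega)
      · have := Nat.not_dvd_ordCompl hp.out hC0
        rwa [hf, pow_one] at this
    obtain ⟨m, hm, hpm⟩ := hpC
    have hmu : IsUnit (m : A) := by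
      have hcop : Nat.Coprime p m := (Nat.Prime.coprime_iff_not_dvd hp.out).2 hpm
      obtain ⟨a, b, hab⟩ := Nat.isCoprime_iff_coprime.2 hcop
      have e1 : (b : A) * m = 1 - (a : A) * p := by
        have := congrArg (Int.cast : ℤ → A) hab
        push_cast at this
        linear_combination this
      refine isUnit_of_mul_isUnit_right (x := (b : A)) ?_
      rw [e1]
      exact ((Commute.all _ _).isNilpotent_mul_left hnil).isUnit_one_sub
    have hcP : coeff d (cPoly p A (j + 1)) = (m : A) := by
      rw [coeff_apply, cPoly, if_pos ⟨by omega, by omega, by omega⟩, hd0, hm,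
        Nat.mul_div_cancel_left _ hp.out.pos]
    have hsum : coeff d (δ.subst (x0 + x1 : MvPowerSeries (Fin 2) A)) = 0 := by
      rw [coeff_subst_sum δ (by simp) (le_refl _)]
      refine Finset.sum_eq_zero fun t _ => ?_
      rw [coeff_add_pow]
      split_ifs with ht
      · refine hz _ (hφE _) _ ?_
        rw [hd0, show t = K by omega, hm, Nat.cast_mul]
        exact M.mul_mem_right _ hpM
      · rw [mul_zero]
    have hx0 : coeff d (δ.subst (x0 : MvPowerSeries (Fin 2) A)) = 0 := by
      rw [PowerSeries.coeff_subst_single, if_neg]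
      intro e'
      have := congrArg (fun f : Fin 2 →₀ ℕ => f 1) e'
      simp [hd1] at this
      omega
    have hx1 : coeff d (δ.subst (x1 : MvPowerSeries (Fin 2) A)) = 0 := by
      rw [PowerSeries.coeff_subst_single, if_neg]
      intro e'
      have := congrArg (fun f : Fin 2 →₀ ℕ => f 0) e'
      simp [hd0] at this
      omega
    rw [hcP, hsum, hx0, hx1, sub_zero, sub_zero, add_zero, neg_mul, neg_eq_zero,
      hmu.mul_left_eq_zero, vTuple, vTuple, dif_pos ⟨Nat.le_add_left 1 j, by omega⟩,
      dif_pos ⟨Nat.le_add_left 1 j, by omega⟩, sub_eq_zero] at h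
    simpa using h
  have huu : u = u' := funext fun i => hv i.1 i.2
  refine ⟨huu, ?_⟩
  subst huu
  -- the series is the identity
  set q := p ^ n with hq
  set P := mulSer F p with hP
  have hP0 : PowerSeries.constantCoeff P = 0 := mulSer_const F p
  have hPM : CIn (σ := Unit) M (P - (PowerSeries.X : PowerSeries A) ^ q) := by
    refine cIn_sub_iff.2 ?_
    change PowerSeries.map π P = PowerSeries.map π ((PowerSeries.X : PowerSeries A) ^ q)
    rw [hP, map_mulSer, map_pow, PowerSeries.map_X, hF, hlawH u hu]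
    exact (hLow p (A ⧸ M)).2.2.2 n hn inferInstance
  have hXq : PowerSeries.constantCoeff ((PowerSeries.X : PowerSeries A) ^ q) = 0 := by
    rw [map_pow, PowerSeries.constantCoeff_X, zero_pow (pow_pos hp.out.pos n).ne']
  have hcomm : φ.subst P = P.subst φ := hφ.subst_mulSer p
  have hL : φ.subst P = P + δ.subst ((PowerSeries.X : PowerSeries A) ^ q) := by
    rw [hsub (c := (P : MvPowerSeries Unit A)) hP0, psubst_eq hz hφE hP0 hXq hPM]
  have hR : P.subst φ = P := by
    have hsφ : PowerSeries.HasSubst φ := PowerSeries.HasSubst.of_constantCoeff_zero hφ.1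
    have hsX : PowerSeries.HasSubst (PowerSeries.X : PowerSeries A) :=
      PowerSeries.HasSubst.of_constantCoeff_zero PowerSeries.constantCoeff_X
    have hδ2 : δ * δ = 0 := MvPowerSeries.ext fun d => by
      classical
      rw [map_zero, MvPowerSeries.coeff_mul]
      exact Finset.sum_eq_zero fun c _ => hz _ (hφE _) _ (hEM (hφE _))
    have hδq : (q : PowerSeries A) * δ = 0 := PowerSeries.ext fun m => by
      rw [← map_natCast (PowerSeries.C (R := A)), PowerSeries.coeff_C_mul, map_zero, mul_comm]
      refine hz _ (hφE _) _ ?_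
      rw [hq, Nat.cast_pow]
      exact M.pow_mem_of_mem hpM n (by omega)
    have hq' : φ ^ q = (PowerSeries.X : PowerSeries A) ^ q := by rw [hφ', add_pow_eq hδ2 hδq]
    have hself : ∀ f : PowerSeries A, f.subst (PowerSeries.X : PowerSeries A) = f := fun f =>
      (PowerSeries.map_algebraMap_eq_subst_X f).symm.trans (by simp)
    calc P.subst φ = (P - PowerSeries.X ^ q + PowerSeries.X ^ q).subst φ := by rw [sub_add_cancel]
      _ = (P - PowerSeries.X ^ q).subst φ + φ ^ q := by
        rw [PowerSeries.subst_add hsφ, PowerSeries.subst_pow hsφ, PowerSeries.subst_X hsφ]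
      _ = P := by
        rw [psubst_eq (a := φ) (b := (PowerSeries.X : PowerSeries A)) hME hPM hφ.1
          PowerSeries.constantCoeff_X hφE, hself, hq', sub_add_cancel]
  rw [hL, hR, add_eq_left] at hcomm
  refine sub_eq_zero.1 (PowerSeries.ext fun m => ?_)
  rw [map_zero, ← hδ, ← coeff_mul_subst_X_pow δ (pow_pos hp.out.pos n).ne' m, hcomm, map_zero]

theorem rigid (hLaw : LawTarget) (hLow : LowDegreeTarget) (hn : 1 ≤ n) :
    ∀ (S : ℕ) {A : Type} [CommRing A] {M : Ideal A}, (p : A) ∈ M → M ^ S = ⊥ →
      ∀ {u u' : Fin (n - 1) → A}, (∀ i, u i ∈ M) → (∀ i, u' i ∈ M) → ∀ {φ : PowerSeries A},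
        IsHom (law p (vTuple n u)) (law p (vTuple n u')) φ →
        CIn (σ := Unit) M (φ - PowerSeries.X) → u = u' ∧ φ = PowerSeries.X := by
  intro S
  induction S with
  | zero =>
    intro A _ M _ hS u u' _ _ φ _ _
    have : Subsingleton A := by
      rw [pow_zero, Ideal.one_eq_top] at hS
      exact subsingleton_iff_zero_eq_one.1
        ((Ideal.mem_bot.1 (hS ▸ Submodule.mem_top : (1 : A) ∈ (⊥ : Ideal A))).symm)
    exact ⟨Subsingleton.elim _ _, PowerSeries.ext fun m => Subsingleton.elim _ _⟩
  | succ S ih =>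
    intro A _ M hpM hS u u' hu hu' φ hφ hres
    rcases Nat.eq_zero_or_pos S with rfl | hpos
    · rw [pow_one] at hS
      subst hS
      refine ⟨funext fun i => ?_, sub_eq_zero.1 (MvPowerSeries.ext fun d => ?_)⟩
      · rw [Ideal.mem_bot.1 (hu i), Ideal.mem_bot.1 (hu' i)]
      · rw [Ideal.mem_bot.1 (hres d), map_zero]
    set π := Ideal.Quotient.mk (M ^ S) with hπ
    have hmap : ∀ w : Fin (n - 1) → A,
        (law p (vTuple n w)).map π = law p (vTuple n fun i => π (w i)) := fun w => by
      rw [law_map]
      congr 1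
      funext i
      rw [map_vTuple]
    have h0 : M.map π ^ S = ⊥ := by rw [← Ideal.map_pow, hπ, Ideal.map_quotient_self]
    have hφq := isHom_map π hφ
    rw [hmap, hmap] at hφq
    obtain ⟨hu1, hφ1⟩ := ih (M := M.map π) (by
        rw [← map_natCast π]; exact Ideal.mem_map_of_mem _ hpM) h0
      (fun i => Ideal.mem_map_of_mem _ (hu i)) (fun i => Ideal.mem_map_of_mem _ (hu' i)) hφq
      (fun d => by
        rw [← PowerSeries.map_X π, ← map_sub]
        exact Ideal.mem_map_of_mem _ (hres d))
    refine rigid_step hLaw hLow hn hpM ⟨S + 1, Ideal.mem_bot.1 (hS ▸ Ideal.pow_mem_pow hpM _)⟩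
      (E := M ^ S) (Ideal.pow_le_self hpos.ne') (fun x hx y hy => ?_) hu hu'
      (fun i => Ideal.Quotient.eq.1 (congrFun hu1 i)) hφ ?_
    · rw [← Ideal.mem_bot, ← hS, pow_succ]
      exact Ideal.mul_mem_mul hx hy
    · refine cIn_sub_iff.2 ?_
      change PowerSeries.map π φ = PowerSeries.map π PowerSeries.X
      rw [PowerSeries.map_X, hφ1]

end Vale.Agent.P217.AU

end
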